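import Mathlib

/-!
P240: a finite tree has a vertex or an edge fixed by all of its automorphisms.
-/

open SimpleGraph

namespace Vale.Agent.P240

/-- A finite tree has a vertex or an edge that every automorphism maps to itself. -/
theorem exists_fixed_simplex : ∀ (N : ℕ) {V : Type*} [Finite V] (T : SimpleGraph V),
    Nat.card V ≤ N → T.IsTree → ∃ v w : V, (v = w ∨ T.Adj v w) ∧
      ∀ σ : T ≃g T, (σ v = v ∧ σ w = w) ∨ (σ v = w ∧ σ w = v) := by
  intro N
  induction N with
  | zero =>
    intro V _ T hN hT
    have := hT.connected.nonempty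
    exact absurd hN (not_le.2 Nat.card_pos)
  | succ N ih =>
    intro V _ T hN hT
    classical
    have : Fintype V := Fintype.ofFinite V
    have hne := hT.connected.nonempty
    obtain ⟨v₀⟩ := hne
    set S : Set V := {v | ∃ a b, a ≠ b ∧ T.Adj v a ∧ T.Adj v b} with hS
    have hSσ : ∀ (σ : T ≃g T) (v : V), v ∈ S → σ v ∈ S := by
      rintro σ v ⟨a, b, hab, ha, hb⟩
      exact ⟨σ a, σ b, fun e => hab (σ.injective e), σ.map_adj_iff.2 ha, σ.map_adj_iff.2 hb⟩
    by_cases hSne : S.Nonempty
    · have hconn : (T.induce S).Connected := by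
        have : Nonempty S := hSne.to_subtype
        refine ⟨fun u v => ?_⟩
        obtain ⟨p, hp⟩ := (hT.connected.preconnected u.1 v.1).exists_isPath
        have hsupp : ∀ w ∈ p.support, w ∈ S := by
          intro w hw
          by_cases hwu : w = u.1
          · exact hwu ▸ u.2
          by_cases hwv : w = v.1
          · exact hwv ▸ v.2
          have hq : ¬ (p.takeUntil w hw).Nil := Walk.not_nil_of_ne (Ne.symm hwu)
          have hr : ¬ (p.dropUntil w hw).Nil := Walk.not_nil_of_ne hwv
          refine ⟨(p.takeUntil w hw).penultimate, (p.dropUntil w hw).snd, ?_,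
            ((p.takeUntil w hw).adj_penultimate hq).symm, (p.dropUntil w hw).adj_snd hr⟩
          intro e
          have hpq : ((p.takeUntil w hw).append (p.dropUntil w hw)).IsPath := by
            rwa [p.take_spec hw]
          have hnd := hpq.support_nodup
          rw [Walk.support_append] at hnd
          refine List.disjoint_of_nodup_append hnd (a := (p.dropUntil w hw).snd) ?_ ?_
          · rw [← e]; exact Walk.getVert_mem_support _ _
          · exact Walk.snd_mem_tail_support hr
        exact ⟨p.induce S hsupp⟩
      have hlt : Nat.card S ≤ N := by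
        obtain ⟨v, hv⟩ := hSne
        obtain ⟨a, b, hab, ha, -⟩ := hv
        have : Nontrivial V := ⟨⟨a, b, hab⟩⟩
        obtain ⟨l, hl⟩ := hT.exists_vert_degree_one_of_nontrivial
        have hlS : l ∉ S := by
          rintro ⟨a', b', hab', ha', hb'⟩
          obtain ⟨c, hc, hcu⟩ := degree_eq_one_iff_existsUnique_adj.1 hl
          exact hab' ((hcu a' ha').trans (hcu b' hb').symm)
        have : Nat.card S < Nat.card V := by
          rw [Nat.card_eq_fintype_card, Nat.card_eq_fintype_card]
          exact Fintype.card_subtype_lt hlS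
        omega
      obtain ⟨v, w, hvw, hfix⟩ := ih (T.induce S) hlt ⟨hconn, hT.isAcyclic.induce S⟩
      refine ⟨v.1, w.1, hvw.imp (congrArg Subtype.val) id, fun σ => ?_⟩
      let τ : T.induce S ≃g T.induce S :=
        { toEquiv :=
            { toFun := fun x => ⟨σ x.1, hSσ σ x.1 x.2⟩
              invFun := fun x => ⟨σ.symm x.1, hSσ σ.symm x.1 x.2⟩
              left_inv := fun x => Subtype.ext (σ.symm_apply_apply x.1)
              right_inv := fun x => Subtype.ext (σ.apply_symm_apply x.1) }
          map_rel_iff' := σ.map_adj_iff }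
      exact (hfix τ).imp (fun h => ⟨congrArg Subtype.val h.1, congrArg Subtype.val h.2⟩)
        (fun h => ⟨congrArg Subtype.val h.1, congrArg Subtype.val h.2⟩)
    · have huniq : ∀ v a b, T.Adj v a → T.Adj v b → a = b := fun v a b ha hb => by
        by_contra hab
        exact hSne ⟨v, a, b, hab, ha, hb⟩
      by_cases h : ∃ w, T.Adj v₀ w
      · obtain ⟨w, hw⟩ := h
        have hclosed : ∀ {a b : V}, T.Walk a b → (a = v₀ ∨ a = w) → (b = v₀ ∨ b = w) := by
          intro a b p
          induction p with
          | nil => exact id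
          | cons h p ih' =>
            intro ha
            refine ih' ?_
            rcases ha with rfl | rfl
            · exact Or.inr (huniq _ _ _ h hw)
            · exact Or.inl (huniq _ _ _ h hw.symm)
        refine ⟨v₀, w, Or.inr hw, fun σ => ?_⟩
        have h1 := hclosed (hT.connected.preconnected v₀ (σ v₀)).some (Or.inl rfl)
        have h2 := hclosed (hT.connected.preconnected v₀ (σ w)).some (Or.inl rfl)
        rcases h1 with h1 | h1 <;> rcases h2 with h2 | h2
        · exact absurd (σ.injective (h1.trans h2.symm)) hw.ne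
        · exact Or.inl ⟨h1, h2⟩
        · exact Or.inr ⟨h1, h2⟩
        · exact absurd (σ.injective (h1.trans h2.symm)) hw.ne
      · refine ⟨v₀, v₀, Or.inl rfl, fun σ => ?_⟩
        have : σ v₀ = v₀ := by
          obtain ⟨p⟩ := hT.connected.preconnected v₀ (σ v₀)
          by_contra hne
          exact h ⟨p.snd, p.adj_snd (Walk.not_nil_of_ne (Ne.symm hne))⟩
        exact Or.inl ⟨this, this⟩

end Vale.Agent.P240
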